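import Vale.Agent.P245.H368.UniP
import Vale.Agent.P245.H368.SupU

/-! P245 (helper368): functional isoperimetric inequality for `|f|`, super-level sets with convex
components. -/

open MeasureTheory Set Filter Topology
open scoped ENNReal ContDiff

namespace Vale.Agent.P245.H368

open Vale.Agent.P245.QC

variable {n : ℕ}

theorem supP {P : Set (EuclideanSpace ℝ (Fin n)) → Prop} {μ : Measure (EuclideanSpace ℝ (Fin n))} [IsProbabilityMeasure μ] {κ r₀ : ℝ}
    (hκ : 0 < κ) (hr₀ : 0 < r₀) (hiso : IsoP μ P κ r₀) {f : EuclideanSpace ℝ (Fin n) → ℝ}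
    (hf : ContDiff ℝ ∞ f) (hc : HasCompactSupport f) {M : ℝ} (hM0 : 0 ≤ M)
    (hq : ∀ᵐ t : ℝ, M < t → FinP P {x | t ≤ |f x|})
    (hM : ∀ t, M < t → μ.real {x | t ≤ |f x|} ≤ 1 / 2) (γ w : ℝ → ℝ) (hγ : Continuous γ)
    (hw : Continuous w) (hγ0 : ∀ t, 0 ≤ γ t) (hw0 : ∀ t, 0 ≤ w t) (hwM : ∀ t ≤ M, w t = 0)
    (hwγ : ∀ t, M < t → 0 < μ.real {x | t ≤ |f x|} →
      w t ≤ γ t * √(Real.log (1 / μ.real {x | t ≤ |f x|}))) :
    ∫ x, (∫ t in (0 : ℝ)..|f x|, w t) ∂μ ≤ κ * ∫ x, γ |f x| * ‖gradient f x‖ ∂μ := by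
  have hfc := hf.continuous
  have hac : Continuous fun y => |f y| := hfc.abs
  have hacs : HasCompactSupport fun y => |f y| := hc.norm
  have hf0 : ∀ x, 0 ≤ |f x| := fun x => abs_nonneg _
  obtain ⟨B, hB0, hB⟩ := bdd_of_compact hfc hc
  have hdc : Continuous (fderiv ℝ f) := hf.continuous_fderiv (by simp)
  have hdcs : HasCompactSupport (fderiv ℝ f) := hc.fderiv ℝ
  obtain ⟨L, hL⟩ := hdcs.exists_bound_of_continuous hdc
  have hng : ∀ x, ‖gradient f x‖ = ‖fderiv ℝ f x‖ := by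
    intro x
    rw [gradient, LinearIsometryEquiv.norm_map]
  have hgc : Continuous fun x => ‖gradient f x‖ := by
    simp_rw [hng]
    exact hdc.norm
  have hgi : Integrable (fun x => ‖gradient f x‖) μ := by
    refine int_bdd hgc (B := L) fun x => ?_
    rw [abs_of_nonneg (norm_nonneg _), hng]
    exact hL x
  have hγb : ∃ Γ, ∀ x, |γ (|f x|)| ≤ Γ := by
    obtain ⟨Γ, hΓ⟩ := (isCompact_Icc (a := (0 : ℝ)) (b := B)).exists_bound_of_continuousOn
      hγ.continuousOn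
    exact ⟨Γ, fun x => hΓ _ ⟨hf0 x, hB x⟩⟩
  obtain ⟨Γ, hΓ⟩ := hγb
  have hγi : Integrable (fun x => γ |f x|) μ := int_bdd (hγ.comp hac) hΓ
  have hγgi : Integrable (fun x => γ |f x| * ‖gradient f x‖) μ := by
    refine int_bdd ((hγ.comp hac).mul hgc) (B := Γ * L) fun x => ?_
    rw [abs_mul]
    apply mul_le_mul (hΓ x) _ (abs_nonneg _) ((abs_nonneg _).trans (hΓ x))
    rw [abs_of_nonneg (norm_nonneg _), hng]
    exact hL x
  have key : ∀ ε : ℝ, 0 < ε → ∫ x, Pr w |f x| ∂μ ≤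
      κ * (∫ x, γ |f x| * ‖gradient f x‖ ∂μ + ε * ((∫ x, γ |f x| ∂μ)
        + (∫ x, ‖gradient f x‖ ∂μ) + ε)) := by
    intro ε hε
    obtain ⟨δ, hδ, h1⟩ := upperU hf hc hγ hγ0 hε
    have hJ0 : 0 ≤ ∫ x, γ |f x| * ‖gradient f x‖ ∂μ + ε * ((∫ x, γ |f x| ∂μ)
        + (∫ x, ‖gradient f x‖ ∂μ) + ε) := by
      have a1 : 0 ≤ ∫ x, γ |f x| * ‖gradient f x‖ ∂μ :=
        integral_nonneg fun x => mul_nonneg (hγ0 _) (norm_nonneg _)
      have a2 : 0 ≤ ∫ x, γ |f x| ∂μ := integral_nonneg fun x => hγ0 _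
      have a3 : 0 ≤ ∫ x, ‖gradient f x‖ ∂μ := integral_nonneg fun x => norm_nonneg _
      positivity
    refine lowerP hκ hr₀ hiso hac hacs hf0 hM0 hq hM hγ hw hγ0 hw0 hwM hwγ hδ hJ0
      fun r hr0 hrδ => ?_
    have hQ0 : ∀ x, 0 ≤ Qs (fun y => |f y|) r x := fun x => (hf0 x).trans (le_Qs_self hac hr0.le x)
    have hQB : ∀ x, Qs (fun y => |f y|) r x ≤ B := by
      intro x
      obtain ⟨h, -, e⟩ := Qs_attained hac hr0.le x
      rw [e]
      exact hB _
    have h3 : ∫ x, Pr γ (Qs (fun y => |f y|) r x) ∂μ - ∫ x, Pr γ |f x| ∂μ ≤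
        ∫ x, r * ((‖gradient f x‖ + ε) * (γ |f x| + ε)) ∂μ := by
      rw [← integral_sub (int_Pr hγ hγ0 (Qs_continuous hac r) hQB hQ0)
        (int_Pr hγ hγ0 hac hB hf0)]
      apply integral_mono ((int_Pr hγ hγ0 (Qs_continuous hac r) hQB hQ0).sub
        (int_Pr hγ hγ0 hac hB hf0)) _ (fun x => h1 r hr0 hrδ x)
      apply Integrable.const_mul
      have : (fun x => (‖gradient f x‖ + ε) * (γ |f x| + ε)) = fun x =>
          γ |f x| * ‖gradient f x‖ + (ε * γ |f x| + (ε * ‖gradient f x‖ + ε * ε)) := by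
        funext x
        ring
      rw [this]
      exact hγgi.add ((hγi.const_mul ε).add ((hgi.const_mul ε).add (integrable_const _)))
    rw [integral_const_mul] at h3
    have h4 : ∫ x, (‖gradient f x‖ + ε) * (γ |f x| + ε) ∂μ =
        ∫ x, γ |f x| * ‖gradient f x‖ ∂μ + ε * ((∫ x, γ |f x| ∂μ)
          + (∫ x, ‖gradient f x‖ ∂μ) + ε) := by
      have : (fun x => (‖gradient f x‖ + ε) * (γ |f x| + ε)) = fun x =>
          γ |f x| * ‖gradient f x‖ + (ε * γ |f x| + (ε * ‖gradient f x‖ + ε * ε)) := by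
        funext x
        ring
      have a1 : Integrable (fun x => ε * ‖gradient f x‖ + ε * ε) μ :=
        (hgi.const_mul ε).add (integrable_const _)
      have a2 : Integrable (fun x => ε * γ |f x| + (ε * ‖gradient f x‖ + ε * ε)) μ :=
        (hγi.const_mul ε).add a1
      rw [this, integral_add hγgi a2, integral_add (hγi.const_mul ε) a1,
        integral_add (hgi.const_mul ε) (integrable_const _),
        integral_const_mul, integral_const_mul, integral_const]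
      simp
      ring
    rw [h4] at h3
    exact h3
  have hlim : Tendsto (fun ε : ℝ => κ * (∫ x, γ |f x| * ‖gradient f x‖ ∂μ
      + ε * ((∫ x, γ |f x| ∂μ) + (∫ x, ‖gradient f x‖ ∂μ) + ε))) (𝓝[>] 0)
      (𝓝 (κ * (∫ x, γ |f x| * ‖gradient f x‖ ∂μ
      + 0 * ((∫ x, γ |f x| ∂μ) + (∫ x, ‖gradient f x‖ ∂μ) + 0)))) := by
    apply Tendsto.mono_left _ nhdsWithin_le_nhds
    have : Continuous fun ε : ℝ => κ * (∫ x, γ |f x| * ‖gradient f x‖ ∂μ
      + ε * ((∫ x, γ |f x| ∂μ) + (∫ x, ‖gradient f x‖ ∂μ) + ε)) := by fun_prop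
    exact this.tendsto 0
  rw [zero_mul, add_zero] at hlim
  refine ge_of_tendsto hlim ?_
  filter_upwards [self_mem_nhdsWithin] with ε hε
  exact key ε hε

end Vale.Agent.P245.H368
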